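import Mathlib
import Vale.Agent.Lib.P328.RP.UnitRow
import Vale.Agent.Lib.P328.RP.RowPerm

/-!
P328: a crude (non-sharp) spectral gap for three-row contingency tables one of whose rows has
sum at most one, for arbitrary column sums.

For `f` on `CT 3 n r c` with `r k ≤ 1`,
`ip f f - ip f (R univ f) ≤ (3 n + 1) * ∑ over the three pairs q of (ip f f - ip f (R q f))`,
and the same with the constant `4 n`.

Proof for `r 2 = 1`.  `F := R {0, 1} f` is a function of the unit column `J`; `f = F + f0` with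
`f0` orthogonal to the functions of `J`.  For two tables `x`, `x'` there is a table `w` with the
unit column of `x'` and the same row `0` or the same row `1` as `x`; the classes of equal row
`0` (row `1`) have at most `n` elements; so `Var F ≤ n (X 0 F + X 1 F)`, where
`X a g = ip g g - ip g (R (univ.erase a) g)`.  Finally `X a F ≤ 3 X a f + 3/2 ‖f0‖²`.
-/

namespace Vale.Agent.Lib.P328.RP

open Finset
open Vale.Agent.Lib.P335.Bip

namespace Crude

section abstract

variable {Ω K : Type*} [Fintype Ω] [DecidableEq K]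

/-- The sum of the squared differences over a class of `κ`. -/
theorem class_sq (κ : Ω → K) (F : Ω → ℝ) (x : Ω) :
    ∑ w ∈ univ.filter (fun w => κ w = κ x), (F x - F w) ^ 2
      = ((univ.filter (fun w => κ w = κ x)).card : ℝ) *
        (F x ^ 2 - 2 * F x * cexp κ F x + cexp κ (fun y => F y ^ 2) x) := by
  have hN := (fib_card_pos κ x).ne'
  have h1 : ((univ.filter (fun w => κ w = κ x)).card : ℝ) * cexp κ F x
      = ∑ w ∈ univ.filter (fun w => κ w = κ x), F w := by
    rw [cexp_apply, mul_div_assoc', mul_comm, mul_div_assoc, div_self hN, mul_one]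
  have h2 : ((univ.filter (fun w => κ w = κ x)).card : ℝ) * cexp κ (fun y => F y ^ 2) x
      = ∑ w ∈ univ.filter (fun w => κ w = κ x), F w ^ 2 := by
    rw [cexp_apply, mul_div_assoc', mul_comm, mul_div_assoc, div_self hN, mul_one]
  have h3 : ∑ w ∈ univ.filter (fun w => κ w = κ x), (F x - F w) ^ 2
      = ∑ w ∈ univ.filter (fun w => κ w = κ x), (F x ^ 2 - 2 * F x * F w + F w ^ 2) :=
    Finset.sum_congr rfl (fun w _ => by ring)
  rw [h3, Finset.sum_add_distrib, Finset.sum_sub_distrib, Finset.sum_const, ← Finset.mul_sum,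
    nsmul_eq_mul, ← h1, ← h2]
  ring

/-- Summing the class sums: if the classes of `κ` have at most `N` elements, the total is at
most `2 N` times the Dirichlet form of `cexp κ`. -/
theorem sum_class_sq_le (κ : Ω → K) (F : Ω → ℝ) (N : ℝ)
    (hN : ∀ x, ((univ.filter (fun w => κ w = κ x)).card : ℝ) ≤ N) :
    ∑ x, ∑ w ∈ univ.filter (fun w => κ w = κ x), (F x - F w) ^ 2
      ≤ 2 * N * (ip F F - ip F (cexp κ F)) := by
  have hB : ∀ x, 0 ≤ F x ^ 2 - 2 * F x * cexp κ F x + cexp κ (fun y => F y ^ 2) x := by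
    intro x
    have h1 := class_sq κ F x
    have h2 : 0 ≤ ∑ w ∈ univ.filter (fun w => κ w = κ x), (F x - F w) ^ 2 :=
      Finset.sum_nonneg (fun w _ => sq_nonneg _)
    rw [h1] at h2
    by_contra hcon
    push Not at hcon
    have := mul_neg_of_pos_of_neg (fib_card_pos κ x) hcon
    linarith
  have h3 : ∀ x, ∑ w ∈ univ.filter (fun w => κ w = κ x), (F x - F w) ^ 2
      ≤ N * (F x ^ 2 - 2 * F x * cexp κ F x + cexp κ (fun y => F y ^ 2) x) := by
    intro x
    rw [class_sq]
    exact mul_le_mul_of_nonneg_right (hN x) (hB x)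
  have h4 : ∑ x, (F x ^ 2 - 2 * F x * cexp κ F x + cexp κ (fun y => F y ^ 2) x)
      = 2 * (ip F F - ip F (cexp κ F)) := by
    have e1 : ∑ x, cexp κ (fun y => F y ^ 2) x = ∑ x, F x ^ 2 := sum_cexp κ _
    have e2 : ip F F = ∑ x, F x ^ 2 := ip_eq_sum_sq F
    have e3 : ip F (cexp κ F) = ∑ x, F x * cexp κ F x := rfl
    have e4 : ∑ x, 2 * F x * cexp κ F x = 2 * ∑ x, F x * cexp κ F x := by
      rw [Finset.mul_sum]
      exact Finset.sum_congr rfl (fun x _ => by ring)
    rw [Finset.sum_add_distrib, Finset.sum_sub_distrib, e1, e2, e3, e4]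
    ring
  calc ∑ x, ∑ w ∈ univ.filter (fun w => κ w = κ x), (F x - F w) ^ 2
      ≤ ∑ x, N * (F x ^ 2 - 2 * F x * cexp κ F x + cexp κ (fun y => F y ^ 2) x) :=
        Finset.sum_le_sum (fun x _ => h3 x)
    _ = N * ∑ x, (F x ^ 2 - 2 * F x * cexp κ F x + cexp κ (fun y => F y ^ 2) x) := by
        rw [Finset.mul_sum]
    _ = 2 * N * (ip F F - ip F (cexp κ F)) := by
        rw [h4]
        ring

/-- **Poincaré inequality from links.**  If any two points `x`, `x'` are linked by a point `w`
with `F w = F x'` lying in the `κ0`-class or in the `κ1`-class of `x`, and the classes have at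
most `N` elements, then the variance of `F` is at most `N` times the sum of the two Dirichlet
forms. -/
theorem poincare {K0 K1 : Type*} [DecidableEq K0] [DecidableEq K1] (κ0 : Ω → K0) (κ1 : Ω → K1)
    (F : Ω → ℝ) (N : ℝ)
    (hN0 : ∀ x, ((univ.filter (fun w => κ0 w = κ0 x)).card : ℝ) ≤ N)
    (hN1 : ∀ x, ((univ.filter (fun w => κ1 w = κ1 x)).card : ℝ) ≤ N)
    (hPW : ∀ x x' : Ω, ∃ w, F w = F x' ∧ (κ0 w = κ0 x ∨ κ1 w = κ1 x)) :
    (Fintype.card Ω : ℝ) * ip F F - (∑ x, F x) ^ 2
      ≤ (Fintype.card Ω : ℝ) *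
        (N * ((ip F F - ip F (cexp κ0 F)) + (ip F F - ip F (cexp κ1 F)))) := by
  set S0 : Ω → ℝ := fun x => ∑ w ∈ univ.filter (fun w => κ0 w = κ0 x), (F x - F w) ^ 2 with hS0
  set S1 : Ω → ℝ := fun x => ∑ w ∈ univ.filter (fun w => κ1 w = κ1 x), (F x - F w) ^ 2 with hS1
  have hS0nn : ∀ x, 0 ≤ S0 x := fun x => Finset.sum_nonneg (fun w _ => sq_nonneg _)
  have hS1nn : ∀ x, 0 ≤ S1 x := fun x => Finset.sum_nonneg (fun w _ => sq_nonneg _)
  have hpw : ∀ x x', (F x - F x') ^ 2 ≤ S0 x + S1 x := by
    intro x x'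
    obtain ⟨w, hw, h | h⟩ := hPW x x'
    · have h1 : (F x - F w) ^ 2 ≤ S0 x :=
        Finset.single_le_sum (f := fun w => (F x - F w) ^ 2) (fun w _ => sq_nonneg _)
          (Finset.mem_filter.mpr ⟨Finset.mem_univ w, h⟩)
      rw [hw] at h1
      linarith [hS1nn x]
    · have h1 : (F x - F w) ^ 2 ≤ S1 x :=
        Finset.single_le_sum (f := fun w => (F x - F w) ^ 2) (fun w _ => sq_nonneg _)
          (Finset.mem_filter.mpr ⟨Finset.mem_univ w, h⟩)
      rw [hw] at h1
      linarith [hS0nn x]
  have hsum : ∑ x, ∑ x', (F x - F x') ^ 2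
      = 2 * ((Fintype.card Ω : ℝ) * ip F F - (∑ x, F x) ^ 2) := by
    have h1 : ∀ x, ∑ x', (F x - F x') ^ 2
        = (Fintype.card Ω : ℝ) * F x ^ 2 - 2 * F x * (∑ x', F x') + ∑ x', F x' ^ 2 := by
      intro x
      rw [Finset.sum_congr rfl (fun x' _ =>
          show (F x - F x') ^ 2 = F x ^ 2 - 2 * F x * F x' + F x' ^ 2 by ring),
        Finset.sum_add_distrib, Finset.sum_sub_distrib, Finset.sum_const, ← Finset.mul_sum,
        Finset.card_univ, nsmul_eq_mul]
    have h2 : ∑ x, 2 * F x * (∑ x', F x') = 2 * (∑ x, F x) ^ 2 := by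
      rw [← Finset.sum_mul, ← Finset.mul_sum]
      ring
    rw [Finset.sum_congr rfl (fun x _ => h1 x), Finset.sum_add_distrib, Finset.sum_sub_distrib,
      ← Finset.mul_sum, h2, Finset.sum_const, Finset.card_univ, nsmul_eq_mul, ip_eq_sum_sq]
    ring
  have hle : ∑ x, ∑ x', (F x - F x') ^ 2 ≤ (Fintype.card Ω : ℝ) * (∑ x, S0 x + ∑ x, S1 x) := by
    rw [← Finset.sum_add_distrib, Finset.mul_sum]
    refine Finset.sum_le_sum (fun x _ => ?_)
    calc ∑ x', (F x - F x') ^ 2 ≤ ∑ _x' : Ω, (S0 x + S1 x) :=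
          Finset.sum_le_sum (fun x' _ => hpw x x')
      _ = (Fintype.card Ω : ℝ) * (S0 x + S1 x) := by
          rw [Finset.sum_const, Finset.card_univ, nsmul_eq_mul]
  have h0 : ∑ x, S0 x ≤ 2 * N * (ip F F - ip F (cexp κ0 F)) := sum_class_sq_le κ0 F N hN0
  have h1 : ∑ x, S1 x ≤ 2 * N * (ip F F - ip F (cexp κ1 F)) := sum_class_sq_le κ1 F N hN1
  have hZ : (0 : ℝ) ≤ Fintype.card Ω := Nat.cast_nonneg _
  have h2 : (Fintype.card Ω : ℝ) * (∑ x, S0 x + ∑ x, S1 x)
      ≤ (Fintype.card Ω : ℝ) * (2 * N * (ip F F - ip F (cexp κ0 F))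
        + 2 * N * (ip F F - ip F (cexp κ1 F))) :=
    mul_le_mul_of_nonneg_left (add_le_add h0 h1) hZ
  rw [hsum] at hle
  linarith

/-- The Dirichlet form `g ↦ ip g g - ip g (cexp κ g)` of a difference. -/
theorem form_sub_le (κ : Ω → K) (u v : Ω → ℝ) :
    ip (u - v) (u - v) - ip (u - v) (cexp κ (u - v))
      ≤ 3 * (ip u u - ip u (cexp κ u)) + 3 / 2 * (ip v v - ip v (cexp κ v)) := by
  have h := ip_cexp_le κ ((2 : ℝ) • u + v)
  rw [map_add, map_smul] at h
  simp only [ip_add_left, ip_add_right, ip_smul_left, ip_smul_right] at h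
  rw [map_sub]
  simp only [ip_sub_left, ip_sub_right]
  have e1 : ip v u = ip u v := ip_comm v u
  have e2 : ip v (cexp κ u) = ip u (cexp κ v) := by rw [cexp_symm, ip_comm]
  rw [e1, e2] at h ⊢
  linarith

end abstract

section tables

variable {n : ℕ} {r : Fin 3 → ℕ} {c : Fin n → ℕ}

open UnitRow

/-- Two three-row arrays have the same rows outside `univ.erase a` iff they have the same
row `a`. -/
theorem mask_erase_iff (a : Fin 3) (x y : Fin 3 → Fin n → ℕ) :
    mask (univ.erase a) x = mask (univ.erase a) y ↔ x a = y a := by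
  rw [mask_eq_iff]
  constructor
  · intro h
    exact h a (Finset.notMem_erase a univ)
  · intro h i hi
    have hia : i = a := by
      by_contra hne
      exact hi (Finset.mem_erase.mpr ⟨hne, Finset.mem_univ i⟩)
    rw [hia]
    exact h

/-- The tables with a given row `a ∈ {0, 1}` are at most `n`: one for each unit column. -/
theorem class_card_le (hr : r 2 = 1) (a : Fin 3) (ha : a ≠ 2) (x : CT 3 n r c) :
    ((univ.filter (fun w : CT 3 n r c =>
      mask (univ.erase a) w.1 = mask (univ.erase a) x.1)).card : ℝ) ≤ n := by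
  have h : (univ.filter (fun w : CT 3 n r c =>
      mask (univ.erase a) w.1 = mask (univ.erase a) x.1)).card
      ≤ (univ : Finset (Fin n)).card := by
    apply Finset.card_le_card_of_injOn (ucol hr)
    · intro w _
      exact Finset.mem_coe.mpr (Finset.mem_univ _)
    · intro w hw w' hw' hww
      have h1 := (mask_erase_iff a w.1 x.1).mp (Finset.mem_filter.mp (Finset.mem_coe.mp hw)).2
      have h2 := (mask_erase_iff a w'.1 x.1).mp (Finset.mem_filter.mp (Finset.mem_coe.mp hw')).2
      exact ext_of hr a ha w w' (h1.trans h2.symm) hww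
  rw [Finset.card_univ, Fintype.card_fin] at h
  exact_mod_cast h

/-- **Links.**  For two tables `x`, `x'` there is a table with the last row of `x'` and the
same row `0` or the same row `1` as `x`. -/
theorem exists_link (hr : r 2 = 1) (x x' : CT 3 n r c) :
    ∃ w : CT 3 n r c, w.1 2 = x'.1 2 ∧ (w.1 0 = x.1 0 ∨ w.1 1 = x.1 1) := by
  have hrow : ∀ w : CT 3 n r c, ucol hr w = ucol hr x' → w.1 2 = x'.1 2 := by
    intro w hw
    funext j
    rw [row2_apply hr w j, row2_apply hr x' j, hw]
  by_cases h : x.1 0 (ucol hr x') < c (ucol hr x')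
  · obtain ⟨w, hw0, hwl⟩ := exists_table hr 0 (by decide) x (ucol hr x') h
    exact ⟨w, hrow w hwl, Or.inl hw0⟩
  · have hx := col3 x (ucol hr x')
    have hx' := lt_of_ucol hr 0 (by decide) x'
    have h1 : x.1 1 (ucol hr x') < c (ucol hr x') := by omega
    obtain ⟨w, hw1, hwl⟩ := exists_table hr 1 (by decide) x (ucol hr x') h1
    exact ⟨w, hrow w hwl, Or.inr hw1⟩

theorem sum_pairs (φ : Finset (Fin 3) → ℝ) :
    ∑ p ∈ (univ : Finset (Fin 3)).powersetCard 2, φ p
      = φ (univ.erase 0) + φ (univ.erase 1) + φ (univ.erase 2) := by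
  rw [Rows.pairs_eq, Finset.sum_image (fun a _ b _ h => Rows.erase_inj h), Fin.sum_univ_three]

theorem form_nonneg {m : ℕ} {r' : Fin m → ℕ} (q : Finset (Fin m)) (f : CT m n r' c → ℝ) :
    0 ≤ ip f f - ip f (R q f) := by
  have h : ip f (R q f) ≤ ip f f := ip_cexp_le _ f
  linarith

/-- a row with sum zero vanishes -/
theorem row_eq_zero {k : Fin 3} (hk : r k = 0) (x : CT 3 n r c) (j : Fin n) : x.1 k j = 0 := by
  have h := entry_le x k j
  rw [hk] at h
  exact Nat.le_zero.mp h

theorem ip_R_univ' (g : CT 3 n r c → ℝ) :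
    ip g (R univ g) = (∑ x, g x) ^ 2 / (Fintype.card (CT 3 n r c) : ℝ) := by
  unfold ip
  rw [Finset.sum_congr rfl (fun x _ => by rw [R_univ_apply]), ← Finset.sum_mul]
  ring

end tables

end Crude

/-! The main statements live in the namespace `H77`, so that this file can be imported together
with the other files of the library that prove inequalities of the same shape. -/

namespace H77

open Crude UnitRow in
/-- **Crude gap, last row of sum one.**  For three-row tables whose last row has sum one and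
arbitrary column sums, the variance is at most `3 n + 1` times the sum of the three row-pair
Dirichlet forms. -/
theorem crude_gap_unit {n : ℕ} (r : Fin 3 → ℕ) (c : Fin n → ℕ) (hr : r 2 = 1)
    (f : CT 3 n r c → ℝ) :
    ip f f - ip f (R univ f) ≤ (3 * (n : ℝ) + 1) *
      ∑ q ∈ (univ : Finset (Fin 3)).powersetCard 2, (ip f f - ip f (R q f)) := by
  classical
  rw [sum_pairs]
  rcases isEmpty_or_nonempty (CT 3 n r c) with hE | hNE
  · have h0 : ∀ u v : CT 3 n r c → ℝ, ip u v = 0 := by
      intro u v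
      unfold ip
      rw [Finset.univ_eq_empty, Finset.sum_empty]
    simp only [h0, sub_self, add_zero, mul_zero, le_refl]
  set F : CT 3 n r c → ℝ := R (univ.erase 2) f with hF
  set f0 : CT 3 n r c → ℝ := f - F with hf0
  have hfF : f - f0 = F := by
    rw [hf0]
    exact sub_sub_cancel f F
  -- the three Dirichlet forms of `f` are nonnegative
  have hX0 := form_nonneg (univ.erase (0 : Fin 3)) f
  have hX1 := form_nonneg (univ.erase (1 : Fin 3)) f
  -- `‖f0‖² = X 2 f`
  have hX2 : ip f0 f0 = ip f f - ip f (R (univ.erase 2) f) := by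
    rw [hf0, hF]
    exact ip_sub_cexp _ f
  -- variance decomposition
  have hFF : ip F F = ip f F := by
    rw [hF]
    exact (ip_cexp_self _ f).symm
  have hEF : ip F (R univ F) = ip f (R univ f) := by
    have h1 : R (univ : Finset (Fin 3)) F = R univ f := by
      rw [hF]
      exact R_T_R_of_subset (Finset.subset_univ _) f
    rw [h1, hF, ← R_symm, R_R_of_subset (Finset.subset_univ _)]
  -- Poincaré inequality for `F`
  have hPW : ∀ x x' : CT 3 n r c, ∃ w, F w = F x' ∧
      (mask (univ.erase (0 : Fin 3)) w.1 = mask (univ.erase (0 : Fin 3)) x.1 ∨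
        mask (univ.erase (1 : Fin 3)) w.1 = mask (univ.erase (1 : Fin 3)) x.1) := by
    intro x x'
    obtain ⟨w, hw2, hw⟩ := exists_link hr x x'
    refine ⟨w, ?_, ?_⟩
    · rw [hF]
      exact R_congr _ f (fun i hi => by
        have hi2 : i = 2 := by
          by_contra hne
          exact hi (Finset.mem_erase.mpr ⟨hne, Finset.mem_univ i⟩)
        rw [hi2]
        exact hw2)
    · rcases hw with h | h
      · exact Or.inl ((mask_erase_iff 0 w.1 x.1).mpr h)
      · exact Or.inr ((mask_erase_iff 1 w.1 x.1).mpr h)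
  have hP := poincare (fun x : CT 3 n r c => mask (univ.erase (0 : Fin 3)) x.1)
    (fun x : CT 3 n r c => mask (univ.erase (1 : Fin 3)) x.1) F (n : ℝ)
    (fun x => class_card_le hr 0 (by decide) x) (fun x => class_card_le hr 1 (by decide) x) hPW
  have hZ : (0 : ℝ) < Fintype.card (CT 3 n r c) := by
    exact_mod_cast Fintype.card_pos
  have hVarF : ip F F - ip F (R univ F)
      ≤ (n : ℝ) * ((ip F F - ip F (R (univ.erase 0) F)) + (ip F F - ip F (R (univ.erase 1) F))) := by
    rw [ip_R_univ' F]
    have h1 : ip F F - (∑ x, F x) ^ 2 / (Fintype.card (CT 3 n r c) : ℝ)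
        = ((Fintype.card (CT 3 n r c) : ℝ) * ip F F - (∑ x, F x) ^ 2)
          / (Fintype.card (CT 3 n r c) : ℝ) := by
      field_simp
    rw [h1, div_le_iff₀ hZ, mul_comm _ (Fintype.card (CT 3 n r c) : ℝ)]
    exact hP
  -- comparison of the Dirichlet forms of `F` and `f`
  have hq0 : ip F F - ip F (R (univ.erase 0) F)
      ≤ 3 * (ip f f - ip f (R (univ.erase 0) f)) + 3 / 2 * ip f0 f0 := by
    have h1 := form_sub_le (fun x : CT 3 n r c => mask (univ.erase (0 : Fin 3)) x.1) f f0
    rw [hfF] at h1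
    have h2 : 0 ≤ ip f0 (R (univ.erase 0) f0) := ip_cexp_self_nonneg _ f0
    have h3 : ip F F - ip F (R (univ.erase 0) F)
        ≤ 3 * (ip f f - ip f (R (univ.erase 0) f))
          + 3 / 2 * (ip f0 f0 - ip f0 (R (univ.erase 0) f0)) := h1
    linarith
  have hq1 : ip F F - ip F (R (univ.erase 1) F)
      ≤ 3 * (ip f f - ip f (R (univ.erase 1) f)) + 3 / 2 * ip f0 f0 := by
    have h1 := form_sub_le (fun x : CT 3 n r c => mask (univ.erase (1 : Fin 3)) x.1) f f0
    rw [hfF] at h1
    have h2 : 0 ≤ ip f0 (R (univ.erase 1) f0) := ip_cexp_self_nonneg _ f0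
    have h3 : ip F F - ip F (R (univ.erase 1) F)
        ≤ 3 * (ip f f - ip f (R (univ.erase 1) f))
          + 3 / 2 * (ip f0 f0 - ip f0 (R (univ.erase 1) f0)) := h1
    linarith
  have hn : (0 : ℝ) ≤ n := Nat.cast_nonneg n
  have hf0nn : 0 ≤ ip f0 f0 := ip_self_nonneg f0
  -- assembly
  have hA : (n : ℝ) * ((ip F F - ip F (R (univ.erase 0) F)) + (ip F F - ip F (R (univ.erase 1) F)))
      ≤ (n : ℝ) * ((3 * (ip f f - ip f (R (univ.erase 0) f)) + 3 / 2 * ip f0 f0)
        + (3 * (ip f f - ip f (R (univ.erase 1) f)) + 3 / 2 * ip f0 f0)) :=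
    mul_le_mul_of_nonneg_left (add_le_add hq0 hq1) hn
  have hB : ip f f - ip f (R univ f) = (ip F F - ip F (R univ F)) + ip f0 f0 := by
    rw [hEF, hFF, hX2]
    ring
  rw [hX2] at hA
  rw [hB, hX2]
  nlinarith

/-- **Row permutations.**  A bound of the variance by `C` times the sum of the three row-pair
Dirichlet forms for the row sums `r ∘ σ` gives the same bound for the row sums `r`. -/
theorem crude_of_perm {n : ℕ} (r : Fin 3 → ℕ) (c : Fin n → ℕ) (σ : Equiv.Perm (Fin 3)) (C : ℝ)
    (h : ∀ g : CT 3 n (r ∘ σ) c → ℝ, ip g g - ip g (R univ g) ≤ C *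
      ∑ q ∈ (univ : Finset (Fin 3)).powersetCard 2, (ip g g - ip g (R q g)))
    (f : CT 3 n r c → ℝ) :
    ip f f - ip f (R univ f) ≤ C *
      ∑ q ∈ (univ : Finset (Fin 3)).powersetCard 2, (ip f f - ip f (R q f)) := by
  classical
  set g : CT 3 n (r ∘ σ) c → ℝ := fun y => f ((rperm σ).symm y) with hg
  have hf : f = fun x : CT 3 n r c => g (rperm σ x) := by
    funext x
    simp only [hg, Equiv.symm_apply_apply]
  have key := h g
  have e1 : ip f f = ip g g := by
    rw [hf]
    exact ip_rperm σ g g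
  have e2 : ∀ q : Finset (Fin 3), ip f (R (q.map σ.toEmbedding) f) = ip g (R q g) := by
    intro q
    have h1 : R (q.map σ.toEmbedding) f = fun x : CT 3 n r c => R q g (rperm σ x) := by
      funext x
      rw [hf]
      exact R_rperm σ q g x
    rw [h1]
    conv_lhs => rw [hf]
    exact ip_rperm σ g (R q g)
  have e3 : ip f (R univ f) = ip g (R univ g) := by
    have h1 := e2 univ
    rw [Finset.map_univ_equiv] at h1
    exact h1
  have e4 : ∑ q ∈ (univ : Finset (Fin 3)).powersetCard 2, (ip f f - ip f (R q f))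
      = ∑ q ∈ (univ : Finset (Fin 3)).powersetCard 2,
          (ip f f - ip f (R (q.map σ.toEmbedding) f)) := by
    have h1 : (univ : Finset (Fin 3)).powersetCard 2
        = ((univ : Finset (Fin 3)).map σ.toEmbedding).powersetCard 2 := by
      rw [Finset.map_univ_equiv]
    conv_lhs => rw [h1]
    rw [Finset.powersetCard_map, Finset.sum_map]
    rfl
  have e5 : ∑ q ∈ (univ : Finset (Fin 3)).powersetCard 2,
        (ip f f - ip f (R (q.map σ.toEmbedding) f))
      = ∑ q ∈ (univ : Finset (Fin 3)).powersetCard 2, (ip g g - ip g (R q g)) :=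
    Finset.sum_congr rfl (fun q _ => by rw [e2 q, e1])
  rw [e4, e5, e1, e3]
  exact key

open Crude in
/-- **Crude gap, one row of sum at most one.**  For three-row tables one of whose rows has sum
at most one and arbitrary column sums, the variance is at most `3 n + 1` times the sum of the
three row-pair Dirichlet forms. -/
theorem crude_gap_small {n : ℕ} (r : Fin 3 → ℕ) (c : Fin n → ℕ) (k : Fin 3) (hk : r k ≤ 1)
    (f : CT 3 n r c → ℝ) :
    ip f f - ip f (R univ f) ≤ (3 * (n : ℝ) + 1) *
      ∑ q ∈ (univ : Finset (Fin 3)).powersetCard 2, (ip f f - ip f (R q f)) := by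
  classical
  rcases Nat.lt_or_ge (r k) 1 with h0 | h1
  · have hk0 : r k = 0 := by omega
    have h2 : R (univ.erase k) f = R univ f := by
      have h3 : R (univ : Finset (Fin 3)) (R (univ.erase k) f) = R (univ.erase k) f := by
        apply cexp_of_factor
        intro x y _
        apply R_congr
        intro i hi
        have hik : i = k := by
          by_contra hne
          exact hi (Finset.mem_erase.mpr ⟨hne, Finset.mem_univ i⟩)
        rw [hik]
        funext j
        rw [row_eq_zero hk0 x j, row_eq_zero hk0 y j]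
      rw [← h3, R_T_R_of_subset (Finset.subset_univ _)]
    have hS : ip f f - ip f (R univ f)
        ≤ ∑ q ∈ (univ : Finset (Fin 3)).powersetCard 2, (ip f f - ip f (R q f)) := by
      rw [← h2]
      exact Finset.single_le_sum (f := fun q : Finset (Fin 3) => ip f f - ip f (R q f))
        (fun q _ => form_nonneg q f)
        (Finset.mem_powersetCard.mpr ⟨Finset.subset_univ _, by
          rw [Finset.card_erase_of_mem (Finset.mem_univ k), Finset.card_univ, Fintype.card_fin]⟩)
    have hS0 : 0 ≤ ∑ q ∈ (univ : Finset (Fin 3)).powersetCard 2, (ip f f - ip f (R q f)) :=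
      Finset.sum_nonneg (fun q _ => form_nonneg q f)
    have hn : (0 : ℝ) ≤ n := Nat.cast_nonneg n
    nlinarith
  · have hk1 : r k = 1 := by omega
    apply crude_of_perm r c (Equiv.swap 2 k)
    intro g
    apply crude_gap_unit (r ∘ Equiv.swap 2 k) c _ g
    rw [Function.comp_apply, Equiv.swap_apply_left]
    exact hk1

open Crude in
/-- **Crude gap with the constant `4 n`.**  For three-row tables one of whose rows has sum at
most one and arbitrary column sums, the variance is at most `4 n` times the sum of the three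
row-pair Dirichlet forms. -/
theorem crude_gap_small_four {n : ℕ} (r : Fin 3 → ℕ) (c : Fin n → ℕ) (k : Fin 3) (hk : r k ≤ 1)
    (f : CT 3 n r c → ℝ) :
    ip f f - ip f (R univ f) ≤ (4 * (n : ℝ)) *
      ∑ q ∈ (univ : Finset (Fin 3)).powersetCard 2, (ip f f - ip f (R q f)) := by
  classical
  have hS0 : 0 ≤ ∑ q ∈ (univ : Finset (Fin 3)).powersetCard 2, (ip f f - ip f (R q f)) :=
    Finset.sum_nonneg (fun q _ => form_nonneg q f)
  rcases Nat.eq_zero_or_pos n with hn | hn
  · subst hn
    have hsub : ∀ x y : CT 3 0 r c, x = y := fun x y =>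
      Subtype.ext (funext fun i => funext fun j => j.elim0)
    have hR : R (univ : Finset (Fin 3)) f = f :=
      cexp_of_factor _ (fun x y _ => by rw [hsub x y])
    rw [hR, sub_self]
    exact mul_nonneg (by norm_num) hS0
  · have h := crude_gap_small r c k hk f
    have h1 : (1 : ℝ) ≤ n := by exact_mod_cast hn
    have h2 : 3 * (n : ℝ) + 1 ≤ 4 * (n : ℝ) := by linarith
    exact h.trans (mul_le_mul_of_nonneg_right h2 hS0)

end H77

end Vale.Agent.Lib.P328.RP
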